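import Vale.Agent.P335.GraphGap

/-!
# P335: the switch chain mixes rapidly for every degree vector
-/

namespace Vale.Agent.Results.P335.RapidMixing

open Vale.P335

open scoped Classical in
/-- For every degree vector on `n ≥ 4` vertices the switch chain is within total variation `1 / 4`
of uniform after `n ^ 6` steps, from every start. -/
theorem result :
    ∀ n : ℕ, 4 ≤ n → ∀ d : Fin n → ℕ, ∀ t : ℕ, n ^ 6 ≤ t → ∀ G : Omega d,
      (1 / 2 : ℝ) * ∑ H, |(switchChain d ^ t) G H - 1 / (Fintype.card (Omega d) : ℝ)| ≤ 1 / 4 :=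
  fun _ hn d _ ht G => graph_tv hn d ht G

end Vale.Agent.Results.P335.RapidMixing
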